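import Vale.Agent.P011.H872.FF.CopR4

/-!
Two polynomials near the coordinates of `(1 + i X) ^ m`, `i² = i + ν`, characteristic two, are
coprime.
-/

open Polynomial

set_option linter.unusedSectionVars false

namespace Vale.Agent.P011.H732D.C2

variable {k : Type} [Field k]

/-- The coordinates of `(1 + i X) ^ m`, `i² = i + ν`. -/
noncomputable def uv2 (ν : k) : ℕ → k[X] × k[X]
  | 0 => (1, 0)
  | m + 1 => ((uv2 ν m).1 + (uv2 ν m).2 * (C ν * X),
      (uv2 ν m).1 * X + (uv2 ν m).2 + (uv2 ν m).2 * X)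

/-- In an algebra with a root of `X² - X - ν`. -/
theorem uv2_eval {A : Type} [CommRing A] [Algebra k A] {ν : k} {i : A}
    (hi : i * i = i + algebraMap k A ν) (z : A) (m : ℕ) :
    aeval z (uv2 ν m).1 + aeval z (uv2 ν m).2 * i = (1 + i * z) ^ m := by
  induction m with
  | zero => simp [uv2]
  | succ m ih =>
    rw [pow_succ, ← ih, uv2]
    simp only [map_add, map_mul, aeval_C, aeval_X]
    linear_combination (-(aeval z (uv2 ν m).2 * z)) * hi

theorem uv2_deg (ν : k) (m : ℕ) : (uv2 ν m).1.natDegree ≤ m ∧ (uv2 ν m).2.natDegree ≤ m := by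
  induction m with
  | zero => simp [uv2]
  | succ m ih =>
    have hX : (C ν * X : k[X]).natDegree ≤ 1 := (natDegree_C_mul_le _ _).trans natDegree_X_le
    rw [uv2]
    constructor
    · refine (natDegree_add_le _ _).trans (max_le ?_ ?_)
      · exact ih.1.trans (by omega)
      · exact natDegree_mul_le_of_le ih.2 hX
    · refine (natDegree_add_le _ _).trans (max_le ?_ ?_)
      · refine (natDegree_add_le _ _).trans (max_le ?_ ?_)
        · exact natDegree_mul_le_of_le ih.1 natDegree_X_le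
        · exact ih.2.trans (by omega)
      · exact natDegree_mul_le_of_le ih.2 natDegree_X_le

/-- The coefficients of degree `m`. -/
theorem uv2_lead {A : Type} [CommRing A] [Algebra k A] {ν : k} {i : A}
    (hi : i * i = i + algebraMap k A ν) (m : ℕ) :
    algebraMap k A ((uv2 ν m).1.coeff m) + algebraMap k A ((uv2 ν m).2.coeff m) * i = i ^ m := by
  induction m with
  | zero => simp [uv2]
  | succ m ih =>
    obtain ⟨d1, d2⟩ := uv2_deg ν m
    have h1 : (uv2 ν m).1.coeff (m + 1) = 0 := coeff_eq_zero_of_natDegree_lt (by omega)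
    have h2 : (uv2 ν m).2.coeff (m + 1) = 0 := coeff_eq_zero_of_natDegree_lt (by omega)
    rw [pow_succ, ← ih, uv2]
    rw [coeff_add, h1, zero_add, ← mul_assoc, coeff_mul_X, coeff_mul_C, coeff_add, coeff_add,
      coeff_mul_X, h2, coeff_mul_X, add_zero, map_mul, map_add]
    linear_combination (-(algebraMap k A ((uv2 ν m).2.coeff m))) * hi

theorem uv2_res {ν : k} (h2 : (2 : k) = 0) (hν : ν ≠ 0) {m : ℕ} (hm : 0 < m) :
    resultant (uv2 ν m).1 (uv2 ν m).2 m m ≠ 0 ∧
      ((uv2 ν m).1.coeff m ≠ 0 ∨ (uv2 ν m).2.coeff m ≠ 0) := by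
  let Ω := AlgebraicClosure k
  have h2' : (2 : Ω) = 0 := by
    rw [← map_ofNat (algebraMap k Ω) 2, h2, map_zero]
  obtain ⟨i, hi⟩ : ∃ i : Ω, i * i = i + algebraMap k Ω ν := by
    have hdeg : (X ^ 2 - X - C (algebraMap k Ω ν) : Polynomial Ω).degree ≠ 0 := by
      have : (X ^ 2 - X - C (algebraMap k Ω ν) : Polynomial Ω).degree = 2 := by
        compute_degree!
      rw [this]
      norm_num
    obtain ⟨i, hi⟩ := IsAlgClosed.exists_root _ hdeg
    refine ⟨i, ?_⟩
    rw [IsRoot.def, eval_sub, eval_sub, eval_pow, eval_X, eval_C] at hi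
    linear_combination hi
  have hi'' : (1 + i) * (1 + i) = (1 + i) + algebraMap k Ω ν := by
    linear_combination hi + i * h2'
  have hi0 : i ≠ 0 := by
    rintro rfl
    rw [mul_zero, zero_add, eq_comm, _root_.map_eq_zero] at hi
    exact hν hi
  have hlead : (uv2 ν m).1.coeff m ≠ 0 ∨ (uv2 ν m).2.coeff m ≠ 0 := by
    by_contra hcon
    push Not at hcon
    have h3 := uv2_lead hi m
    rw [hcon.1, hcon.2, map_zero, zero_mul, add_zero] at h3
    exact pow_ne_zero m hi0 h3.symm
  refine ⟨?_, hlead⟩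
  obtain ⟨d1, d2⟩ := uv2_deg ν m
  have h3 : resultant ((uv2 ν m).1.map (algebraMap k Ω)) ((uv2 ν m).2.map (algebraMap k Ω)) m m ≠
      0 := by
    refine H359.res_ne (natDegree_map_le.trans d1) (natDegree_map_le.trans d2) ?_ ?_
    · rintro z ⟨g1, g2⟩
      rw [eval_map_algebraMap] at g1 g2
      have e1 := uv2_eval hi z m
      have e2 := uv2_eval hi'' z m
      rw [g1, g2, zero_mul, add_zero] at e1 e2
      have f1 := (pow_eq_zero_iff hm.ne').mp e1.symm
      have f2 := (pow_eq_zero_iff hm.ne').mp e2.symm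
      have f3 : z = 0 := by linear_combination f2 - f1
      rw [f3, mul_zero, add_zero] at f1
      exact one_ne_zero f1
    · rintro ⟨g1, g2⟩
      rw [coeff_map, _root_.map_eq_zero] at g1 g2
      rcases hlead with h | h
      · exact h g1
      · exact h g2
  rw [resultant_map_map] at h3
  exact fun h4 => h3 (by rw [h4, map_zero])

/-- Polynomials close to the coordinates of `(1 + i X) ^ m` are coprime. -/
theorem cop_near_uv2 (a : AbsoluteValue k ℝ) {ν : k} (h2 : (2 : k) = 0) (hν : ν ≠ 0) {m : ℕ}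
    (hm : 0 < m) :
    ∃ κ : ℝ, 0 < κ ∧ ∀ U V : k[X], U.natDegree ≤ m → V.natDegree ≤ m →
      (∀ n, a (U.coeff n - (uv2 ν m).1.coeff n) < κ) →
      (∀ n, a (V.coeff n - (uv2 ν m).2.coeff n) < κ) →
        IsCoprime U V ∧ (U.coeff m ≠ 0 ∨ V.coeff m ≠ 0) := by
  obtain ⟨hres, hlead⟩ := uv2_res h2 hν hm
  obtain ⟨κ, hκ, h⟩ := Vale.Agent.P011.H872.R4.res_near a m (uv2_deg ν m).1 (uv2_deg ν m).2 hres
  have key : ∀ (P P₀ : k[X]), P₀.coeff m ≠ 0 → a (P.coeff m - P₀.coeff m) < a (P₀.coeff m) →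
      P.coeff m ≠ 0 := by
    intro P P₀ h0 h1 h4
    rw [h4, zero_sub, a.map_neg] at h1
    exact lt_irrefl _ h1
  rcases hlead with hl | hl
  · refine ⟨min κ (a ((uv2 ν m).1.coeff m)), lt_min hκ (a.pos hl), fun U V hU hV hUn hVn =>
      ⟨H359.cop_of_res hU hV hm.ne' (h U V hU hV (fun n _ => (hUn n).trans_le (min_le_left _ _))
        (fun n _ => (hVn n).trans_le (min_le_left _ _))), Or.inl ?_⟩⟩
    exact key U _ hl ((hUn m).trans_le (min_le_right _ _))
  · refine ⟨min κ (a ((uv2 ν m).2.coeff m)), lt_min hκ (a.pos hl), fun U V hU hV hUn hVn =>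
      ⟨H359.cop_of_res hU hV hm.ne' (h U V hU hV (fun n _ => (hUn n).trans_le (min_le_left _ _))
        (fun n _ => (hVn n).trans_le (min_le_left _ _))), Or.inr ?_⟩⟩
    exact key V _ hl ((hVn m).trans_le (min_le_right _ _))

end Vale.Agent.P011.H732D.C2
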