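import Vale.Agent.P011.H732D.C2.Mid
import Vale.Agent.P011.H221.C2.Poly
import Vale.Agent.P011.H462.C2.Jac
import Vale.Agent.P011.H169.C2.CentNrd
import Vale.Agent.P011.H558.C2.RotA
import Vale.Agent.P011.H44.C2.LocF2
import Vale.Agent.P011.H961.StepTwo
import Vale.Agent.P011.H500.C2.R8
import Vale.Agent.P011.H707.C2.SpComp

/-!
# Characteristic two: the reduction to the centralizer, for rings
-/

open Module Polynomial

set_option linter.unusedSectionVars false

namespace Vale.Agent.P011.H732R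

open Vale.Agent.P011.H738 Vale.Agent.P011.H271 Vale.Agent.P011.H961
open Vale.Agent.P011.H698 (Bd Sm Gd NearA)
open Vale.Agent.P011.H305 (SolvAtF)
open Vale.Agent.P011.H707.C2
open Vale.Agent.P011.H169.C2 (IsCent2 starK2 starT2 exists_isCent2 det_pow_ring det_hasNrd2
  norm_quad2)
open Vale.Agent.P011.H872.FF (kk)
open Vale.Agent.P011.W (HasNrd)
open Vale.Agent.P011.H706.C2 (HQ1F2)
open Vale.Agent.P011.H961.C2 (Spl2 step2X)
open Vale.Agent.P011.H732D.C2 (uv2)

section inst

variable {k K A L K' C : Type} [Field k] [GFF k] [Field K] [StarRing K] [Ring A] [StarRing A]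
    [Algebra k K] [Algebra k A] [Algebra K A] [IsScalarTower k K A] [StarModule K A]
    [Field L] [Algebra k L] [Field K'] [StarRing K'] [Algebra K K']
    [DivisionRing C] [StarRing C] [Algebra L K'] [Algebra L C] [Algebra K' C]
    [IsScalarTower L K' C] {n m N : ℕ} {κ : K} {c₀ a : k} {t : A} {T : L} {j : C →+* A}

theorem star_smulk (hA : Anis k K A n) (c : k) (x : A) : star (c • x) = c • star x := by
  rw [← algebraMap_smul K c x, star_smul, (hA.fixed _).mpr ⟨c, rfl⟩, algebraMap_smul]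

theorem star_kappa (h2 : (2 : k) = 0) (hκ : κ + star κ = 1) : star κ = κ + 1 := by
  have h2K : (2 : K) = 0 := by rw [← map_ofNat (algebraMap k K) 2, h2, map_zero]
  linear_combination hκ - κ * h2K

theorem star_algK (c : K) : star (algebraMap K A c) = algebraMap K A (star c) :=
  (algebraMap_star_comm c).symm

/-- The element `I = κ + t`. -/
theorem I_mem2 (h2 : (2 : k) = 0) (hκ : κ + star κ = 1)
    (hc₀ : κ * κ + κ = algebraMap k K c₀) (hts : star t = t) (htt : t * t + t = algebraMap k A a) :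
    algebraMap K A κ + t ∈ Xs A (a + c₀) := by
  refine ⟨?_, ?_⟩
  · rw [star_add, star_algK, hts, star_kappa h2 hκ, map_add, map_one]
    abel
  · have h3 : algebraMap K A κ * algebraMap K A κ =
        algebraMap K A κ + algebraMap k A c₀ := by
      have h4 := congrArg (algebraMap K A) hc₀
      rw [map_add, map_mul, ← IsScalarTower.algebraMap_apply] at h4
      rw [← h4, add_comm, add_assoc, add_self h2, add_zero]
    have h5 : t * t = t + algebraMap k A a := by
      rw [← htt, add_comm, add_assoc, add_self h2, add_zero]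
    have h6 : t * algebraMap K A κ = algebraMap K A κ * t := (Algebra.commutes κ t).symm
    calc (algebraMap K A κ + t) * (algebraMap K A κ + t) =
        algebraMap K A κ * algebraMap K A κ + t * t +
          (t * algebraMap K A κ + algebraMap K A κ * t) := by noncomm_ring
      _ = (algebraMap K A κ + algebraMap k A c₀) + (t + algebraMap k A a) := by
        rw [h6, add_self h2, add_zero, h3, h5]
      _ = _ := by rw [map_add]; abel

/-- Commuting with `I` is commuting with `t`. -/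
theorem comm_I_iff (c : A) : c * (algebraMap K A κ + t) = (algebraMap K A κ + t) * c ↔
    c * t = t * c := by
  rw [mul_add, add_mul, ← Algebra.commutes κ c, add_right_inj]

section data

variable (hA : Anis k K A n) (h2 : (2 : k) = 0) (hκ : κ + star κ = 1)
    (hc₀ : κ * κ + κ = algebraMap k K c₀) (hSC : SetG L K' C) (hC : finrank K' C = m ^ 2)
    (h : IsCent2 k K A L K' C t a T j)

include hA hSC h in
theorem star_kk (c : k) : star (kk k K K' c) = kk k K K' c := by
  change star (algebraMap K K' (algebraMap k K c)) = algebraMap K K' (algebraMap k K c)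
  rw [starK2 hSC h, (hA.fixed _).mpr ⟨c, rfl⟩]

include h2 hκ hSC h in
theorem star_om : star (algebraMap K K' κ + algebraMap L K' T) =
    algebraMap K K' κ + algebraMap L K' T + 1 := by
  rw [star_add, starK2 hSC h, starT2 hSC, star_kappa h2 hκ, map_add, map_one]
  ring

include h2 hc₀ h in
theorem om_sq2 : (algebraMap K K' κ + algebraMap L K' T) *
    (algebraMap K K' κ + algebraMap L K' T) =
    (algebraMap K K' κ + algebraMap L K' T) + kk k K K' (a + c₀) := by
  have h3 := Vale.Agent.P011.H462.C2.om_form2 h2 h hc₀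
  have h2' : (2 : K') = 0 := by
    have : (2 : K') = kk k K K' 2 := (map_ofNat (kk k K K') 2).symm
    rw [this, h2, map_zero]
  linear_combination h3 - (algebraMap K K' κ + algebraMap L K' T) * h2'

include h in
theorem j_kk (c : k) : j (algebraMap K' C (kk k K K' c)) = algebraMap k A c := by
  change j (algebraMap K' C (algebraMap K K' (algebraMap k K c))) = _
  rw [h.jK, ← IsScalarTower.algebraMap_apply]

include h in
theorem j_om : j (algebraMap K' C (algebraMap K K' κ + algebraMap L K' T)) =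
    algebraMap K A κ + t := by
  rw [map_add, map_add, h.jK, h.jTK]

include h in
/-- The elements of the centralizer of `I`. -/
theorem exists_j {c : A} (hc : c * (algebraMap K A κ + t) = (algebraMap K A κ + t) * c) :
    ∃ x : C, j x = c := (h.range c).mp ((comm_I_iff c).mp hc)

include hA h2 hc₀ hSC hC h in
/-- **The norm of an element of the centralizer.** -/
theorem norm_form {Ω : Type} [Field Ω] [Algebra K Ω] (f : A →ₐ[K] Matrix (Fin n) (Fin n) Ω)
    (hm : 0 < m) (hn : n = 2 * m) {x : C} {p u : k}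
    (hx : HasNrd K' m x (kk k K K' p + kk k K K' u * (algebraMap K K' κ + algebraMap L K' T))) :
    Algebra.norm k (j x) = (p ^ 2 + p * u + (a + c₀) * u ^ 2) ^ (2 * n) := by
  have := hA.central
  have := hA.simple
  have := hSC.fin
  have := hSC.cen
  have hn0 : 0 < n := by omega
  have hkinf : Infinite k := Vale.Agent.P011.Hey.gff_infinite k
  have hKinf : Infinite K := Infinite.of_injective _ (algebraMap k K).injective
  have hfin : FiniteDimensional K A := FiniteDimensional.of_finrank_pos (by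
    rw [hA.finrank_eq]; positivity)
  obtain ⟨hkK, -, hr⟩ := Vale.Agent.P011.H519.quad hA.fixed hA.star_ne
  have h2K : (2 : K) = 0 := by rw [← map_ofNat (algebraMap k K) 2, h2, map_zero]
  have h3 := det_pow_ring hn0 hA.finrank_eq f (j x)
  rw [det_hasNrd2 f h hm hn hA.finrank_eq hC hx, ← map_pow] at h3
  have h4 := (algebraMap K Ω).injective h3
  have e1 : kk k K K' p + kk k K K' u * (algebraMap K K' κ + algebraMap L K' T) =
      algebraMap K K' (algebraMap k K p + algebraMap k K u * κ) +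
        algebraMap K K' (algebraMap k K u) * algebraMap L K' T := by
    change algebraMap K K' (algebraMap k K p) + algebraMap K K' (algebraMap k K u) *
      (algebraMap K K' κ + algebraMap L K' T) = _
    rw [map_add, map_mul]
    ring
  have h5 : Algebra.norm K (kk k K K' p + kk k K K' u *
      (algebraMap K K' κ + algebraMap L K' T)) =
      algebraMap k K (p ^ 2 + p * u + (a + c₀) * u ^ 2) := by
    rw [e1, norm_quad2 h2K h.rkK (Vale.Agent.P011.H462.C2.sqT2 h) h.repK]
    simp only [map_add, map_mul, map_pow]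
    linear_combination (algebraMap k K u) ^ 2 * hc₀ +
      (algebraMap k K p * algebraMap k K u * κ) * h2K
  rw [← Algebra.norm_norm (R := k) (S := K), ← h4, h5, ← map_pow, Algebra.norm_algebraMap, hr,
    ← pow_mul, mul_comm n 2]

end data

/-- The norm form on the centralizer. -/
def NR2 (k K : Type) {A L K' C : Type} [Field k] [Field K] [Ring A] [Algebra k K] [Field L]
    [Field K'] [Algebra K K'] [DivisionRing C] [Algebra L K'] [Algebra K' C] (m : ℕ) (κ : K)
    (T : L) (j : C →+* A) (c : A) (p u : k) : Prop :=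
  ∃ x : C, j x = c ∧ HasNrd K' m x (kk k K K' p + kk k K K' u *
    (algebraMap K K' κ + algebraMap L K' T))

/-- **The norm data of the centralizer.** -/
theorem nrData (hA : Anis k K A n) (h2 : (2 : k) = 0) (hκ : κ + star κ = 1)
    (hc₀ : κ * κ + κ = algebraMap k K c₀) (hSC : SetG L K' C) (hC : finrank K' C = m ^ 2)
    (h : IsCent2 k K A L K' C t a T j) (hts : star t = t)
    (htt : t * t + t = algebraMap k A a) (hac : ∀ z : k, z * z + z ≠ a + c₀)
    {Ω : Type} [Field Ω] [Algebra K Ω]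
    (f : A →ₐ[K] Matrix (Fin n) (Fin n) Ω) (hm : 0 < m) (hn : n = 2 * m)
    (B : Basis (Fin N) k A) {w : A} (hw : IsUnit w)
    (hwI : w * (algebraMap K A κ + t) = ((algebraMap K A κ + t) + 1) * w) :
    NRData B (a + c₀) (algebraMap K A κ + t) m (2 * n) {x | x * star x = 1 ∧ (f x).det = 1}
      (NR2 k K (K' := K') m κ T j) := by
  have := hSC.fin
  have := hSC.cen
  have hkinf : Infinite k := Vale.Agent.P011.Hey.gff_infinite k
  have hKinf : Infinite K := Infinite.of_injective _ (algebraMap k K).injective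
  have hst := star_smulk (k := k) hA
  obtain ⟨I, hI⟩ : ∃ I : A, I = algebraMap K A κ + t := ⟨_, rfl⟩
  have hIm : I ∈ Xs A (a + c₀) := by
    rw [hI]
    exact I_mem2 h2 hκ hc₀ hts htt
  rw [← hI] at hwI ⊢
  refine
    { one := ⟨by rw [star_one, mul_one], by rw [map_one, Matrix.det_one]⟩
      star := ?_
      uni := fun x hx => hx.1
      nrm := ?_
      pen := ?_
      near := ?_ }
  · intro x hx
    have h3 : star x * x = 1 := mul_comm_one B hx.1
    refine ⟨by rw [star_star, h3], ?_⟩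
    have h4 : (f (star x)).det * (f x).det = 1 := by
      rw [← Matrix.det_mul, ← map_mul, h3, map_one, Matrix.det_one]
    rwa [hx.2, mul_one] at h4
  · rintro c p u ⟨x, rfl, hx⟩
    exact norm_form hA h2 hc₀ hSC hC h f hm hn hx
  · intro y hy g hg X hX
    obtain ⟨J, hJd⟩ : ∃ J : A, J = (g : A) * I * ((g⁻¹ : Aˣ) : A) := ⟨_, rfl⟩
    have hJ : J ∈ Xs A (a + c₀) := by
      rw [hJd]
      exact jj_mem h2 hIm hy hg
    rw [← hJd]
    obtain ⟨c0, hc0⟩ := exists_j h (c := cc I X) (by rw [← hI]; exact cc_comm h2 hIm X)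
    obtain ⟨c1, hc1⟩ := exists_j h (c := cc I (X * J)) (by rw [← hI]; exact cc_comm h2 hIm _)
    have hcc : ∀ μ : k, j (c0 + algebraMap K' C (kk k K K' μ) * c1) = cc I (X * gg J μ) := by
      intro μ
      rw [map_add, map_mul, j_kk h, hc0, hc1, cc_gg, Algebra.smul_def]
    obtain ⟨U, V, h3, h4, h5, h6⟩ := Vale.Agent.P011.H221.C2.exists_poly (kk k K K')
      (algebraMap K K' κ + algebraMap L K' T) hC (c0 := c0) (c1 := c1) (fun μ => by
        have hρ := rho_ne h2 hac μ
        refine Vale.Agent.P011.H462.C2.jac_puI hA hSC h2 hκ h hts hn hC f (x := X * gg J μ) hI hρ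
          ?_ ?_ (hcc μ)
        · rw [star_mul]
          calc X * gg J μ * (star (gg J μ) * star X) =
              X * (gg J μ * star (gg J μ)) * star X := by noncomm_ring
            _ = _ := by
              rw [gg_mul_star h2 hst hJ, ← Algebra.commutes, mul_assoc, hX.1, mul_one]
        · rw [map_mul, Matrix.det_mul, hX.2, one_mul, hJd]
          exact Vale.Agent.P011.H558.C2.nrd_ggA h2 hn f hIm hw hwI g μ)
    exact ⟨U, V, h3, h4, fun μ => ⟨_, hcc μ, h5 μ⟩, ⟨c1, hc1, h6⟩⟩
  · intro v ε hε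
    obtain ⟨η, hη, h3⟩ := Vale.Agent.P011.H221.C2.poly_near
      (kk := kk k K K') (om := algebraMap K K' κ + algebraMap L K' T) (ν := a + c₀) (j := j)
      (om_sq2 h2 hc₀ h) (star_kk hA hSC h) (star_om h2 hκ hSC h) h.inj (j_kk h) hC B v hε
    refine ⟨η, hη, fun c0 c1 U V hU hV hN h4 h5 => ?_⟩
    obtain ⟨x0, hx0, -⟩ := hN 0
    obtain ⟨x1, hx1, -⟩ := hN 1
    rw [zero_smul, add_zero] at hx0
    rw [one_smul] at hx1
    have hx1' : j (x1 - x0) = c1 := by
      rw [map_sub, hx1, hx0, add_sub_cancel_left]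
    refine h3 x0 (x1 - x0) U V hU hV (fun μ => ?_) (by rw [hx0]; exact h4)
      (by rw [hx1', j_om h, ← hI]; exact h5)
    obtain ⟨x, hx, hx'⟩ := hN μ
    have e : x = x0 + algebraMap K' C (kk k K K' μ) * (x1 - x0) := by
      apply h.inj
      rw [hx, map_add, map_mul, j_kk h, hx1', hx0, Algebra.smul_def]
    rw [← e]
    exact hx'

end inst

section red

variable {k K A : Type} [Field k] [GFF k] [Field K] [StarRing K] [Ring A] [StarRing A]
    [Algebra k K] [Algebra k A] [Algebra K A] [IsScalarTower k K A] [StarModule K A]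
    {n m N : ℕ} {κ : K} {c₀ a : k} {t : A}

/-- **(R7) in characteristic two: the reduction to the centralizer**, for rings. -/
theorem red2 (h2 : (2 : k) = 0) (hA : Anis k K A n) (hm : 0 < m) (hn : n = 2 * m)
    (hκ : κ + star κ = 1) (hc₀ : κ * κ + κ = algebraMap k K c₀) (hts : star t = t)
    (htt : t * t + t = algebraMap k A a) (ha : ∀ z : k, z * z + z ≠ a)
    (hac : ∀ z : k, z * z + z ≠ a + c₀) (hdiv : ∀ c : A, c * t = t * c → c ≠ 0 → IsUnit c)
    {Ω : Type} [Field Ω] [Algebra K Ω] (f : A →ₐ[K] Matrix (Fin n) (Fin n) Ω)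
    (B : Basis (Fin N) k A) (Q : Subgroup (SUA f)) {T₀ : Finset (Place k)} {ε₀ : ℝ}
    (hε₀ : 0 < ε₀) (hQ : HQ1F2 k B T₀ ε₀ (ImA Q)) (hAb : AbAt2 B f (ImA Q) t)
    (S₂ : Finset (Place k)) :
    ∃ S : Finset (Place k), S₂ ⊆ S ∧ ∃ ε : ℝ, 0 < ε ∧ ∀ q ∉ S, Sp (a + c₀) q → ∀ x : A,
      x * star x = 1 → (f x).det = 1 → (∀ v ∈ S, Sm B v ε (x - 1)) →
      (∀ v ∉ S, v ≠ q → Bd B v 1 x) → x ∈ ImA Q := by
  classical
  have := hA.simple
  have hnt : Nontrivial A := IsSimpleRing.instNontrivial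
  have hst := star_smulk (k := k) hA
  have h2K : (2 : K) = 0 := by rw [← map_ofNat (algebraMap k K) 2, h2, map_zero]
  obtain ⟨L, _, _, _, K', _, _, _, _, C, _, _, _, _, _, _, T, j, hSC, hC, h⟩ :=
    exists_isCent2 h2 hA hm hn hts htt ha hdiv
  obtain ⟨I, hI⟩ : ∃ I : A, I = algebraMap K A κ + t := ⟨_, rfl⟩
  have hIm : I ∈ Xs A (a + c₀) := by
    rw [hI]
    exact I_mem2 h2 hκ hc₀ hts htt
  have hdivI : ∀ z : A, z * I = I * z → z ≠ 0 → IsUnit z := fun z hz => by
    rw [hI] at hz
    exact hdiv z ((comm_I_iff z).mp hz)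
  have hνK : ∀ z : K, z * z ≠ z + algebraMap k K (a + c₀) := by
    intro z hz
    refine Vale.Agent.P011.H169.C2.no_root_K h2 hA.fixed hκ (ν := c₀) ?_ ha hac (z + κ) ?_
    · rw [star_kappa h2 hκ, ← hc₀]
      ring
    · rw [map_add] at hz
      linear_combination hz + hc₀ + (z + z * κ + algebraMap k K c₀) * h2K
  obtain ⟨S₁, J, hS₁, hJ, hJW, -, hloc⟩ := Vale.Agent.P011.H44.C2.locF2 h2 hA hm.ne' hn hIm.1
    hIm.2 hνK hdivI B
  -- a unit which carries `I` to `I + 1`
  obtain ⟨w, hw, hwI⟩ : ∃ w : A, IsUnit w ∧ w * I = (I + 1) * w := by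
    refine Vale.Agent.P011.H44.C2.exists_unit_w hA h2 hIm.1 hIm.2 hdivI ?_
    by_contra hcon
    push Not at hcon
    have := hA.central
    have h3 : I ∈ Subalgebra.center K A := by
      rw [Subalgebra.mem_center_iff]
      exact hcon
    rw [Algebra.IsCentral.center_eq_bot] at h3
    obtain ⟨z, hz⟩ := h3
    apply hνK z
    apply (algebraMap K A).injective
    have hz' : algebraMap K A z = I := hz
    rw [map_mul, map_add, hz', hIm.2, ← IsScalarTower.algebraMap_apply]
  have hND := nrData hA h2 hκ hc₀ hSC hC h hts htt hac f hm hn B hw (by rw [← hI]; exact hwI)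
  rw [← hI] at hND
  obtain ⟨v0, -, -⟩ := Vale.Agent.P011.H500.C2.exists_q2 hA (by omega) h2 (a + c₀) ∅
  obtain ⟨SA, θ, hθ, hrot⟩ := Vale.Agent.P011.H558.C2.rot_memA hst f B Q hI hAb
  obtain ⟨S, hSub', hv0, hgood, hmid⟩ := exists_mid2 hst h2 hA.anisotropic hac B hIm hdivI hm
    (r := 2 * n) (by omega) hND hS₁ hJ hJW hloc (S₂ ∪ (T₀ ∪ SA)) v0
  have hSub : T₀ ∪ SA ⊆ S := Finset.union_subset_right hSub'
  have h1Q : (1 : A) ∈ ImA Q := ⟨1, Q.one_mem, rfl⟩
  obtain ⟨κ', hκ', hstep⟩ := step2X h2 hst hA.anisotropic B (a + c₀) I h1Q hε₀ hQ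
    (S₀ := S) (Finset.union_subset_left hSub) ⟨v0, hv0⟩ hgood hθ
  obtain ⟨ε, hε, hmid'⟩ := hmid κ' hκ'
  refine ⟨S, Finset.union_subset_left hSub', min ε θ, lt_min hε hθ,
    fun q hq hqs x hx hdx hxS hxi => ?_⟩
  have hsx : star x * x = 1 := mul_comm_one B hx
  obtain ⟨g, hi, hiS, hu1, hu2⟩ := hmid' q hq hqs x ⟨hx, hdx⟩
    (fun v hv => (hxS v hv).mono (min_le_left _ _)) hxi
  have hsp : ∀ v, ¬ Spl2 v (a + c₀) → ¬ Sp (a + c₀) v := fun v hv hs => hv ((sp_iff h2).mp hs)
  obtain ⟨ν₁, hν₁, hν₁', hn₁⟩ := hstep I hIm _ hi hdivI (fun v hv => ⟨by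
    rw [sub_self]
    exact H698.sm_zero hκ', (hiS v hv).1⟩) (fun v hv hs => hu1 v hv (hsp v hs))
  obtain ⟨ν₂, hν₂, hν₂', hn₂⟩ := hstep _ hi (x * I * star x) (conj_unitary_mem hx hsx hIm)
    (Vale.Agent.P011.H961.C2.cent_conj hdivI g) hiS (fun v hv hs => hu2 v hv (hsp v hs))
  exact hrot x ν₁ ν₂ _ hx hsx hdx hν₁ hν₂ hν₁' hν₂' fun v hv => by
    have hv' : v ∈ S := hSub (Finset.mem_union_right _ hv)
    exact ⟨(hxS v hv').mono (min_le_right _ _), hn₁ v hv', hn₂ v hv'⟩

/-- **The solvable step in characteristic two** from the elements of the centralizer. -/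
theorem solvAt_of_ab2 (hk : IsGlobalFunctionField k) (h2 : (2 : k) = 0) (hA : Anis k K A n)
    (hn3 : 3 ≤ n) (hm : 0 < m) (hn : n = 2 * m)
    (hκ : κ + star κ = 1) (hc₀ : κ * κ + κ = algebraMap k K c₀) (hts : star t = t)
    (htt : t * t + t = algebraMap k A a) (ha : ∀ z : k, z * z + z ≠ a)
    (hac : ∀ z : k, z * z + z ≠ a + c₀) (hdiv : ∀ c : A, c * t = t * c → c ≠ 0 → IsUnit c)
    {Ω : Type} [Field Ω] [Algebra K Ω] (f : A →ₐ[K] Matrix (Fin n) (Fin n) Ω)
    (B : Basis (Fin N) k A)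
    (hAb : ∀ Q : Subgroup (SUA f), Q.Normal → Q.index ≠ 0 → ∀ (T₀ : Finset (Place k)) (ε₀ : ℝ),
      0 < ε₀ → HQ1F2 k B T₀ ε₀ (ImA Q) → AbAt2 B f (ImA Q) t) :
    SolvAtF k K f B := by
  refine Vale.Agent.P011.H500.C2.solvAt_of_red2 hk hA hn3 h2 f B (a + c₀)
    fun Q H hQ hH hQH hi hN hp hc ⟨T, ε, hε, hQ1⟩ S₀ => ?_
  obtain ⟨S, h3, ε', hε', h4⟩ := red2 h2 hA hm hn hκ hc₀ hts htt ha hac hdiv f B Q hε hQ1
    (hAb Q hQ hi T ε hε hQ1) S₀
  exact ⟨S, h3, ε', hε', fun q hq _ hs x hx hdx hxS hxi => h4 q hq hs x hx hdx hxS hxi⟩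

end red

end Vale.Agent.P011.H732R
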