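import Vale.Agent.P011.H698.Bd

/-!
# Sizes of elements of an algebra with a basis at a place: ultrametric estimates, for rings
-/

open Module

set_option linter.unusedSectionVars false

namespace Vale.Agent.P011.H732D.C2

open Vale.Agent.P011.H738 Vale.Agent.P011.H271 Vale.Agent.P011.H698

section sn

variable {k A : Type} [Field k] [Ring A] [Algebra k A] {N : ℕ} (B : Basis (Fin N) k A)
  (v : Place k)

/-- The largest coordinate. -/
noncomputable def sn (x : A) : ℝ :=
  ((Finset.univ.sup fun i => (⟨v.abv (B.repr x i), v.abv.nonneg _⟩ : NNReal) : NNReal) : ℝ)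

variable {B v}

theorem sn_nonneg (x : A) : 0 ≤ sn B v x := NNReal.coe_nonneg _

theorem sn_le {c : ℝ} (hc : 0 ≤ c) {x : A} : sn B v x ≤ c ↔ Bd B v c x := by
  have h1 : sn B v x ≤ c ↔ (Finset.univ.sup fun i =>
      (⟨v.abv (B.repr x i), v.abv.nonneg _⟩ : NNReal)) ≤ (⟨c, hc⟩ : NNReal) := Iff.rfl
  rw [h1, Finset.sup_le_iff]
  constructor
  · intro h i
    exact h i (Finset.mem_univ i)
  · intro h i _
    exact h i

theorem sn_lt {c : ℝ} (hc : 0 < c) {x : A} : sn B v x < c ↔ Sm B v c x := by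
  have h1 : sn B v x < c ↔ (Finset.univ.sup fun i =>
      (⟨v.abv (B.repr x i), v.abv.nonneg _⟩ : NNReal)) < (⟨c, hc.le⟩ : NNReal) := Iff.rfl
  have h2 : (⊥ : NNReal) < ⟨c, hc.le⟩ := hc
  rw [h1]
  constructor
  · intro h i
    exact (Finset.sup_lt_iff h2).mp h i (Finset.mem_univ i)
  · intro h
    exact (Finset.sup_lt_iff h2).mpr fun i _ => h i

theorem bd_sn (x : A) : Bd B v (sn B v x) x := (sn_le (sn_nonneg x)).mp le_rfl

theorem sn_add (x y : A) : sn B v (x + y) ≤ max (sn B v x) (sn B v y) := by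
  rw [sn_le (le_max_of_le_left (sn_nonneg x))]
  exact ((bd_sn x).mono (le_max_left _ _)).add ((bd_sn y).mono (le_max_right _ _))

theorem sn_zero : sn B v (0 : A) = 0 :=
  le_antisymm ((sn_le le_rfl).mpr (bd_zero le_rfl)) (sn_nonneg _)

theorem sn_neg (x : A) : sn B v (-x) = sn B v x := by
  apply le_antisymm
  · rw [sn_le (sn_nonneg x)]
    exact (bd_sn x).neg
  · rw [sn_le (sn_nonneg _)]
    have h := (bd_sn (B := B) (v := v) (-x)).neg
    rwa [neg_neg] at h

theorem sn_sub (x y : A) : sn B v (x - y) ≤ max (sn B v x) (sn B v y) := by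
  rw [sub_eq_add_neg]
  have h := sn_add (B := B) (v := v) x (-y)
  rwa [sn_neg] at h

theorem sn_smul_le (c : k) (x : A) : sn B v (c • x) ≤ v.abv c * sn B v x := by
  rw [sn_le (mul_nonneg (v.abv.nonneg _) (sn_nonneg _))]
  exact Bd.smul le_rfl (bd_sn x)

end sn

section near

variable {k A : Type} [Field k] [GFF k] [Ring A] [StarRing A] [Algebra k A] {N : ℕ}
  (B : Basis (Fin N) k A) (v : Place k)

/-- Constants for the product, the involution and one. -/
theorem exists_c (hst : ∀ (c : k) (x : A), star (c • x) = c • star x) : ∃ C : ℝ, 1 ≤ C ∧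
    (∀ x y : A, sn B v (x * y) ≤ C * sn B v x * sn B v y) ∧
    (∀ x : A, sn B v (star x) ≤ C * sn B v x) ∧ sn B v (1 : A) ≤ C := by
  obtain ⟨C, h1, -, h2, h3, h4⟩ := exists_const B hst
  have hC : 0 ≤ C v := zero_le_one.trans (h1 v)
  refine ⟨C v, h1 v, fun x y => ?_, fun x => ?_, (sn_le hC).mpr (h4 v)⟩
  · rw [sn_le (mul_nonneg (mul_nonneg hC (sn_nonneg _)) (sn_nonneg _))]
    exact h2 v _ _ x y (sn_nonneg _) (sn_nonneg _) (bd_sn x) (bd_sn y)
  · rw [sn_le (mul_nonneg hC (sn_nonneg _))]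
    exact h3 v _ x (sn_nonneg _) (bd_sn x)

variable {B v}

/-- The inverse near one. -/
theorem inv_near {C : ℝ} (hm : ∀ x y : A, sn B v (x * y) ≤ C * sn B v x * sn B v y) {g g' : A}
    (hg : g * g' = 1) (hn : C * sn B v (g - 1) < 1) : sn B v (g' - 1) ≤ sn B v (g - 1) := by
  have e : g' - 1 = -(g - 1) - (g - 1) * (g' - 1) := by
    have h : (g - 1) * (g' - 1) = g * g' - g - g' + 1 := by noncomm_ring
    rw [h, hg]
    noncomm_ring
  by_contra hcon
  rw [not_le] at hcon
  have h0 := sn_nonneg (B := B) (v := v) (g - 1)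
  have h1 : sn B v (g' - 1) ≤ max (sn B v (g - 1)) (C * sn B v (g - 1) * sn B v (g' - 1)) := by
    conv_lhs => rw [e]
    refine (sn_sub _ _).trans (max_le_max ?_ (hm _ _))
    rw [sn_neg]
  rcases le_max_iff.mp h1 with h2 | h2
  · exact absurd h2 (not_le.mpr hcon)
  · have h3 : 0 < sn B v (g' - 1) := h0.trans_lt hcon
    nlinarith

variable (B v)

/-- Conjugation by units near one. -/
theorem conj_near (hst : ∀ (c : k) (x : A), star (c • x) = c • star x) (I : A) {κ : ℝ}
    (hκ : 0 < κ) : ∃ η : ℝ, 0 < η ∧ ∀ g g' : A, g * g' = 1 → Sm B v η (g - 1) →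
      Sm B v κ (g * I * g' - I) ∧ Sm B v κ (star g - 1) ∧ Sm B v κ (g' - 1) := by
  obtain ⟨C, hC1, hm, hs, ho⟩ := exists_c B v hst
  have hC0 : 0 < C := by linarith
  have hI := sn_nonneg (B := B) (v := v) I
  obtain ⟨W, hW⟩ : ∃ W : ℝ, W = C * C * (sn B v I + 1) * (C + 1) + C + 1 := ⟨_, rfl⟩
  have hW0 : 0 < W := by rw [hW]; positivity
  have hη : 0 < min (1 / (2 * C)) (κ / W) := lt_min (by positivity) (by positivity)
  refine ⟨min (1 / (2 * C)) (κ / W), hη, fun g g' hgg hg => ?_⟩
  rw [← sn_lt hη] at hg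
  have hg1 := hg.trans_le (min_le_left _ _)
  have hg2 := hg.trans_le (min_le_right _ _)
  have hn := sn_nonneg (B := B) (v := v) (g - 1)
  have hb : C * sn B v (g - 1) < 1 := by
    have h2 : C * sn B v (g - 1) < C * (1 / (2 * C)) := mul_lt_mul_of_pos_left hg1 hC0
    have h3 : C * (1 / (2 * C)) = 1 / 2 := by field_simp
    linarith
  have h5 := inv_near hm hgg hb
  have h5' := sn_nonneg (B := B) (v := v) (g' - 1)
  have hWκ : sn B v (g - 1) * W < κ := by rwa [lt_div_iff₀ hW0] at hg2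
  have h6 : sn B v g' ≤ C + 1 := by
    have e : g' = (g' - 1) + 1 := by abel
    rw [e]
    refine (sn_add _ _).trans (max_le ?_ (ho.trans (by linarith)))
    have : sn B v (g - 1) ≤ 1 := by nlinarith
    linarith
  have h6' := sn_nonneg (B := B) (v := v) g'
  have hle : sn B v (g - 1) ≤ sn B v (g - 1) * W := by
    have : 1 ≤ W := by
      rw [hW]
      have : 0 ≤ C * C * (sn B v I + 1) * (C + 1) + C := by positivity
      linarith
    nlinarith
  refine ⟨?_, ?_, ?_⟩
  · rw [← sn_lt hκ]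
    have e : g * I * g' - I = (g - 1) * I * g' + I * (g' - 1) := by noncomm_ring
    rw [e]
    refine (sn_add _ _).trans_lt (max_lt ?_ ?_)
    · have h9 : sn B v ((g - 1) * I) ≤ C * sn B v (g - 1) * sn B v I := hm _ _
      have h10 : sn B v ((g - 1) * I * g') ≤ C * (C * sn B v (g - 1) * sn B v I) * (C + 1) := by
        refine (hm _ _).trans ?_
        calc C * sn B v ((g - 1) * I) * sn B v g'
            ≤ C * (C * sn B v (g - 1) * sn B v I) * sn B v g' :=
              mul_le_mul_of_nonneg_right (mul_le_mul_of_nonneg_left h9 hC0.le) h6'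
          _ ≤ _ := mul_le_mul_of_nonneg_left h6 (by positivity)
      have h11 : C * (C * sn B v (g - 1) * sn B v I) * (C + 1) ≤ sn B v (g - 1) * W := by
        rw [hW]
        have h12 : 0 ≤ sn B v (g - 1) * (C * C * (C + 1) + C + 1) := by positivity
        nlinarith
      linarith
    · have h9 : sn B v (I * (g' - 1)) ≤ C * sn B v I * sn B v (g - 1) :=
        (hm _ _).trans (mul_le_mul_of_nonneg_left h5 (by positivity))
      have h11 : C * sn B v I * sn B v (g - 1) ≤ sn B v (g - 1) * W := by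
        rw [hW]
        have h13 : C * sn B v I ≤ C * C * (sn B v I + 1) * (C + 1) := by
          have h14 : C * sn B v I ≤ C * (sn B v I + 1) :=
            mul_le_mul_of_nonneg_left (by linarith) hC0.le
          have h15 : (1 : ℝ) ≤ C * (C + 1) := by nlinarith
          have h16 : 0 ≤ C * (sn B v I + 1) := by positivity
          nlinarith
        nlinarith
      linarith
  · rw [← sn_lt hκ]
    have e : star g - 1 = star (g - 1) := by rw [star_sub, star_one]
    rw [e]
    have h14 := hs (g - 1)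
    have h15 : C * sn B v (g - 1) ≤ sn B v (g - 1) * W := by
      rw [hW]
      have h16 : 0 ≤ sn B v (g - 1) * (C * C * (sn B v I + 1) * (C + 1) + 1) := by positivity
      nlinarith
    linarith
  · rw [← sn_lt hκ]
    linarith

/-- Multiplication near one. -/
theorem mul_near (hst : ∀ (c : k) (x : A), star (c • x) = c • star x) (I : A) {κ : ℝ}
    (hκ : 0 < κ) : ∃ η : ℝ, 0 < η ∧ ∀ X j : A, Sm B v η (X - 1) → Sm B v η (j - I) →
      Sm B v κ (X * j - I) := by
  obtain ⟨C, hC1, hm, -, -⟩ := exists_c B v hst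
  have hC0 : 0 < C := by linarith
  have hI := sn_nonneg (B := B) (v := v) I
  have hη : 0 < min 1 (κ / (C * (sn B v I + 1) + 2)) := lt_min one_pos (by positivity)
  refine ⟨min 1 (κ / (C * (sn B v I + 1) + 2)), hη, fun X j hX hj => ?_⟩
  rw [← sn_lt hη] at hX hj
  have hX2 := hX.trans_le (min_le_right _ _)
  have hj1 := hj.trans_le (min_le_left _ _)
  have hj2 := hj.trans_le (min_le_right _ _)
  have e : X * j - I = (X - 1) * j + (j - I) := by noncomm_ring
  rw [← sn_lt hκ, e]
  have h1 : sn B v j ≤ sn B v I + 1 := by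
    have e1 : j = (j - I) + I := by abel
    rw [e1]
    exact (sn_add _ _).trans (max_le (by linarith) (by linarith))
  have h3 := sn_nonneg (B := B) (v := v) (X - 1)
  have h4 := sn_nonneg (B := B) (v := v) (j - I)
  have h7 : κ / (C * (sn B v I + 1) + 2) * (C * (sn B v I + 1) + 2) = κ := by field_simp
  have h6 : 0 < κ / (C * (sn B v I + 1) + 2) := by positivity
  refine (sn_add _ _).trans_lt (max_lt ?_ ?_)
  · refine (hm _ _).trans_lt ?_
    have h5 : C * sn B v (X - 1) * sn B v j ≤ C * sn B v (X - 1) * (sn B v I + 1) :=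
      mul_le_mul_of_nonneg_left h1 (by positivity)
    have h9 : C * (sn B v I + 1) * sn B v (X - 1) ≤
        C * (sn B v I + 1) * (κ / (C * (sn B v I + 1) + 2)) :=
      mul_le_mul_of_nonneg_left hX2.le (by positivity)
    nlinarith
  · have h10 : 0 ≤ C * (sn B v I + 1) := by positivity
    nlinarith

/-- Linear maps are continuous. -/
theorem lin_near (L : A →ₗ[k] A) {κ : ℝ} (hκ : 0 < κ) : ∃ η : ℝ, 0 < η ∧ ∀ x : A,
    Sm B v η x → Sm B v κ (L x) := by
  obtain ⟨C, h1, -, h2⟩ := lin_bd B B L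
  have hC : 0 < C v := one_pos.trans_le (h1 v)
  have hη : 0 < κ / (C v + 1) := by positivity
  refine ⟨κ / (C v + 1), hη, fun x hx => ?_⟩
  rw [← sn_lt hη] at hx
  rw [← sn_lt hκ]
  have h3 := (sn_le (mul_nonneg hC.le (sn_nonneg _))).mpr
    (h2 v (sn B v x) x (sn_nonneg _) (bd_sn x))
  refine h3.trans_lt ?_
  rw [lt_div_iff₀ (by positivity)] at hx
  have := sn_nonneg (B := B) (v := v) x
  nlinarith

/-- Multiples of an element by small scalars. -/
theorem smul_near (x : A) {κ : ℝ} (hκ : 0 < κ) : ∃ η : ℝ, 0 < η ∧ ∀ c : k, v.abv c < η →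
    Sm B v κ (c • x) := by
  refine ⟨κ / (sn B v x + 1), by
    have := sn_nonneg (B := B) (v := v) x
    positivity, fun c hc => ?_⟩
  have h0 := sn_nonneg (B := B) (v := v) x
  rw [lt_div_iff₀ (by positivity)] at hc
  rw [← sn_lt hκ]
  refine (sn_smul_le c x).trans_lt ?_
  have := v.abv.nonneg c
  nlinarith

end near

section ord

variable {k A : Type} [Field k] [Ring A] [StarRing A] [Algebra k A] {N : ℕ}
  {B : Basis (Fin N) k A} {v : Place k}

theorem bd_smul {x : A} {c : k} (hc : v.abv c ≤ 1) (hx : Bd B v 1 x) : Bd B v 1 (c • x) := by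
  have h := Bd.smul hc hx
  rwa [one_mul] at h

/-- A small element is bounded by a number less than one. -/
theorem exists_lt_bd {x : A} (h : Sm B v 1 x) : ∃ c : ℝ, 0 ≤ c ∧ c < 1 ∧ Bd B v c x :=
  ⟨sn B v x, sn_nonneg x, (sn_lt one_pos).mpr h, bd_sn x⟩

theorem sm_mul_bd (hG : Gd B v) {x y : A} (hx : Sm B v 1 x) (hy : Bd B v 1 y) :
    Sm B v 1 (x * y) := by
  obtain ⟨c, hc0, hc1, hc⟩ := exists_lt_bd hx
  have h := hG.mul' hc0 zero_le_one hc hy
  rw [mul_one] at h
  exact h.sm hc1

theorem bd_mul_sm (hG : Gd B v) {x y : A} (hx : Bd B v 1 x) (hy : Sm B v 1 y) :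
    Sm B v 1 (x * y) := by
  obtain ⟨c, hc0, hc1, hc⟩ := exists_lt_bd hy
  have h := hG.mul' zero_le_one hc0 hx hc
  rw [one_mul] at h
  exact h.sm hc1

end ord

end Vale.Agent.P011.H732D.C2
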