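import Vale.Agent.P011.H732D.C2.Near
import Vale.Agent.P011.H496.NumF

/-!
# The choice of an element of a subspace with prescribed residues, for rings
-/

open Module Polynomial

set_option linter.unusedSectionVars false

namespace Vale.Agent.P011.H732D.C2

open Vale.Agent.P011.H738 Vale.Agent.P011.H271 Vale.Agent.P011.H698

variable {k A : Type} [Field k] [GFF k] [Ring A] [StarRing A] [Algebra k A] {N : ℕ}

theorem sm_sum {B : Basis (Fin N) k A} {v : Place k} {η : ℝ} (hη : 0 < η) {ι : Type*}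
    (s : Finset ι) (g : ι → A) (h : ∀ i ∈ s, Sm B v η (g i)) : Sm B v η (∑ i ∈ s, g i) := by
  classical
  induction s using Finset.induction_on with
  | empty => rw [Finset.sum_empty]; exact sm_zero hη
  | insert b s hb ih =>
    rw [Finset.sum_insert hb]
    exact (h b (Finset.mem_insert_self _ _)).add (ih fun i hi => h i (Finset.mem_insert_of_mem hi))

/-- **The choice of `y`** in a subspace. -/
theorem exists_pick (B : Basis (Fin N) k A) {J : Set A} (hJ : J.Finite) (W : Submodule k A)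
    (hJW : J ⊆ W) (v0 q : Place k) (hq : v0 ≠ q) {U₀ : Set (Place k)} (hU₀ : U₀.Finite)
    (h0 : v0 ∉ U₀) (hqU : q ∉ U₀) (hJ1 : ∀ v ∈ U₀, ∀ y ∈ J, Bd B v 1 y) (yv : Place k → A)
    (hyv : ∀ v ∈ U₀, yv v ∈ J) {ε : ℝ} (hε : 0 < ε) :
    ∃ y ∈ W, (∀ v ∈ U₀, Sm B v 1 (y - yv v)) ∧ Sm B v0 ε y := by
  classical
  obtain ⟨M, hM1, hM⟩ : ∃ M : ℝ, 1 ≤ M ∧ ∀ y ∈ J, Bd B v0 M y := by
    choose c hc1 hc using fun y : A => exists_bd (B := B) (v := v0) y
    refine ⟨1 + ∑ y ∈ hJ.toFinset, c y, ?_, fun y hy => (hc y).mono ?_⟩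
    · have := Finset.sum_nonneg fun y (_ : y ∈ hJ.toFinset) => zero_le_one.trans (hc1 y)
      linarith
    · have := Finset.single_le_sum (f := c) (fun y _ => zero_le_one.trans (hc1 y))
        (hJ.mem_toFinset.mpr hy)
      linarith
  have hM0 : 0 < M := by linarith
  choose c hc hc' using fun y : A => Vale.Agent.P011.H496.NumF.near_int_fam
    (S := insert v0 U₀) (hU₀.insert v0) q (by
      rw [Set.mem_insert_iff, not_or]
      exact ⟨Ne.symm hq, hqU⟩) (fun v => if v = v0 then 0 else if yv v = y then 1 else 0)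
    (fun v => if v = v0 then ε / (2 * M) else 1) (fun v _ => by
      by_cases hv : v = v0
      · rw [if_pos hv]
        positivity
      · rw [if_neg hv]
        exact one_pos)
  refine ⟨∑ y ∈ hJ.toFinset, c y • y, ?_, fun v hv => ?_, ?_⟩
  · exact W.sum_mem fun y hy => W.smul_mem _ (hJW (hJ.mem_toFinset.mp hy))
  · have hvv : v ≠ v0 := by
      rintro rfl
      exact h0 hv
    have e : yv v = ∑ y ∈ hJ.toFinset, (if yv v = y then (1 : k) else 0) • y := by
      simp only [ite_smul, one_smul, zero_smul]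
      rw [Finset.sum_ite_eq, if_pos (hJ.mem_toFinset.mpr (hyv v hv))]
    rw [e, ← Finset.sum_sub_distrib]
    refine sm_sum one_pos _ _ fun y hy => ?_
    rw [← sub_smul]
    have h1 := hc y v (Set.mem_insert_of_mem _ hv)
    rw [if_neg hvv, if_neg hvv] at h1
    intro i
    rw [map_smul, Finsupp.smul_apply, smul_eq_mul, map_mul]
    have h2 := hJ1 v hv y (hJ.mem_toFinset.mp hy) i
    calc _ ≤ v.abv (c y - if yv v = y then (1 : k) else 0) * 1 :=
          mul_le_mul_of_nonneg_left h2 (v.abv.nonneg _)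
      _ < 1 := by rw [mul_one]; exact h1
  · refine sm_sum hε _ _ fun y hy => ?_
    have h1 := hc y v0 (Set.mem_insert _ _)
    rw [if_pos rfl, if_pos rfl, sub_zero] at h1
    have h2 : Bd B v0 (ε / (2 * M) * M) (c y • y) :=
      Bd.smul h1.le (hM y (hJ.mem_toFinset.mp hy))
    refine h2.sm ?_
    have h3 : ε / (2 * M) * M = ε / 2 := by field_simp
    rw [h3]
    exact half_lt_self hε

end Vale.Agent.P011.H732D.C2
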