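import Vale.Agent.P011.H707.C2.Un
import Vale.Agent.P011.H732D.C2.Near
import Vale.Agent.P011.H732D.C2.Pick
import Vale.Agent.P011.H732D.C2.Uv
import Vale.Agent.P011.H732D.Asm1
import Vale.Agent.P011.H167.CnC

/-!
# Characteristic two: the middle element, for rings with an abstract norm form
-/

open Module Polynomial

set_option linter.unusedSectionVars false

namespace Vale.Agent.P011.H732R

open Vale.Agent.P011.H738 Vale.Agent.P011.H271
open Vale.Agent.P011.H698 (Bd Sm Gd sm_zero bd_zero finite_bad exists_sup_family)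
open Vale.Agent.P011.H707.C2
open Vale.Agent.P011.H732D.C2 (bd_mul_sm sm_mul_bd conj_near mul_near lin_near smul_near exists_pick
  uv2 cop_near_uv2)
open Vale.Agent.P011.H496.NumF (cop_good exists_grid grid_good near_int_fam grid poly_int)
open Vale.Agent.P011.H732D (exists_theta)

section at_place

variable {k A : Type} [Field k] [Ring A] [StarRing A] [Algebra k A] {N : ℕ}
  {B : Basis (Fin N) k A} {v : Place k} {ν : k} {I : A}

theorem finite_not_bd [GFF k] (B : Basis (Fin N) k A) (x : A) :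
    {v : Place k | ¬ Bd B v 1 x}.Finite := by
  obtain ⟨C, -, h2, h3⟩ := exists_sup_family B fun _ : Unit => x
  refine h2.subset fun v hv => ?_
  rw [Set.mem_ofPred_eq]
  intro h4
  apply hv
  have := h3 v ()
  rwa [h4] at this

/-- The elements `1 + y` are units. -/
theorem isUnit_one_add [Nontrivial A] (h2 : (2 : k) = 0)
    (hiso : ∀ x : A, star x * x = 0 → x = 0)
    (hC : ∀ z : A, z * I = I * z → z ≠ 0 → IsUnit z) {y : A} (hy : y ∈ Wi I) :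
    IsUnit (1 + y) := by
  have h1 : (1 + y) * (1 + y) ≠ 0 := by
    intro h0
    refine one_add_ne h2 hy (hiso _ ?_)
    rw [star_one_add hy, h0]
  have h3 : (1 + y) * (1 + y) * I = I * ((1 + y) * (1 + y)) := by
    rw [one_add_sq h2, add_mul, mul_add, one_mul, mul_one, wi_sq_comm h2 hy]
  obtain ⟨w, hw⟩ := hC _ h3 h1
  refine ⟨⟨1 + y, (1 + y) * ((w⁻¹ : Aˣ) : A), ?_, ?_⟩, rfl⟩
  · rw [← mul_assoc, ← hw, Units.mul_inv]
  · have h4 : (1 + y) * (w : A) = w * (1 + y) := by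
      rw [hw]
      noncomm_ring
    have h5 : ((w⁻¹ : Aˣ) : A) * (1 + y) = (1 + y) * ((w⁻¹ : Aˣ) : A) := by
      calc ((w⁻¹ : Aˣ) : A) * (1 + y) = ((w⁻¹ : Aˣ) : A) * ((1 + y) * w) * ((w⁻¹ : Aˣ) : A) := by
            rw [mul_assoc, mul_assoc, Units.mul_inv, mul_one]
        _ = (1 + y) * ((w⁻¹ : Aˣ) : A) := by
            rw [h4, ← mul_assoc, Units.inv_mul, one_mul]
    rw [mul_assoc, h5, ← mul_assoc, ← hw, Units.mul_inv]

/-- **The data of `y` at a place of `U₀`.** -/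
theorem un_at2 (h2 : (2 : k) = 0) (hG : Gd B v) (hI : I ∈ Xs A ν) (hIb : Bd B v 1 I) {y y' : A}
    (hy : y ∈ Wi I) {g : Aˣ} (hg : (g : A) = 1 + y)
    (hyb : Bd B v 1 y') (hyy : Sm B v 1 (y - y')) (h1 : Un B v (1 + y'))
    (h3 : Un B v (I + (I + 1) * (y' * y'))) {X : A} (hX : Bd B v 1 X)
    (hz : Un B v (cc I X * (I + (I + 1) * (y' * y')) + (X + cc I X) * y')) :
    Bd B v 1 ((g : A) * I * ((g⁻¹ : Aˣ) : A)) ∧
      Un B v (cc I (1 * ((g : A) * I * ((g⁻¹ : Aˣ) : A)))) ∧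
      Un B v (cc I (X * ((g : A) * I * ((g⁻¹ : Aˣ) : A)))) := by
  have hyb' : Bd B v 1 y := by
    have e : y = (y - y') + y' := by abel
    rw [e]
    exact hyy.bd.add hyb
  have a1 : Un B v (g : A) := by
    rw [hg]
    exact un_of_near hG h1 (by rwa [add_sub_add_left_eq_sub])
  have a2 : Un B v ((g⁻¹ : Aˣ) : A) := a1.units_inv
  have hsm : Sm B v 1 (y * y - y' * y') := by
    have e : y * y - y' * y' = (y - y') * y + y' * (y - y') := by noncomm_ring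
    rw [e]
    exact (sm_mul_bd hG hyy hyb').add (bd_mul_sm hG hyb hyy)
  have hI1 : Bd B v 1 (I + 1) := hIb.add hG.one
  have hsm2 : Sm B v 1 (I + (I + 1) * (y * y) - (I + (I + 1) * (y' * y'))) := by
    have e : I + (I + 1) * (y * y) - (I + (I + 1) * (y' * y')) =
        (I + 1) * (y * y - y' * y') := by noncomm_ring
    rw [e]
    exact bd_mul_sm hG hI1 hsm
  have a3 : Un B v (I + (I + 1) * (y * y)) := un_of_near hG h3 hsm2
  have hX0 : Bd B v 1 (cc I X) := bd_cc hG hIb hX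
  have a4 : Un B v (cc I X * (I + (I + 1) * (y * y)) + (X + cc I X) * y) := by
    refine un_of_near hG hz ?_
    have e : cc I X * (I + (I + 1) * (y * y)) + (X + cc I X) * y -
        (cc I X * (I + (I + 1) * (y' * y')) + (X + cc I X) * y') =
        cc I X * (I + (I + 1) * (y * y) - (I + (I + 1) * (y' * y'))) +
          (X + cc I X) * (y - y') := by
      noncomm_ring
    rw [e]
    exact (bd_mul_sm hG hX0 hsm2).add (bd_mul_sm hG (hX.add hX0) hyy)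
  have key : ∀ Z R : A, Z * ((g : A) * g) = R → Un B v R → Un B v Z := by
    intro Z R hZ hR
    have e : Z = R * (((g⁻¹ : Aˣ) : A) * ((g⁻¹ : Aˣ) : A)) := by
      rw [← hZ]
      calc Z = Z * ((g : A) * ((g : A) * ((g⁻¹ : Aˣ) : A)) * ((g⁻¹ : Aˣ) : A)) := by
            rw [Units.mul_inv, mul_one, Units.mul_inv, mul_one]
        _ = _ := by noncomm_ring
    rw [e]
    exact un_mul hG hR (un_mul hG a2 a2)
  refine ⟨bd_mul hG (bd_mul hG a1.bd hIb) a2.bd, ?_, ?_⟩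
  · refine key _ _ (cc_jj h2 hI hy hg 1) ?_
    rw [cc_one h2, one_mul, add_self h2, zero_mul, add_zero]
    exact a3
  · exact key _ _ (cc_jj h2 hI hy hg X) a4

end at_place

section main

variable {k A : Type} [Field k] [GFF k] [Ring A] [Nontrivial A] [StarRing A] [Algebra k A]

/-- The norm form: `NR c p u` says that `c` has the reduced norm `p + u I`. -/
structure NRData {N : ℕ} (B : Basis (Fin N) k A) (ν : k) (I : A) (m r : ℕ) (G : Set A)
    (NR : A → k → k → Prop) : Prop where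
  one : (1 : A) ∈ G
  star : ∀ x ∈ G, star x ∈ G
  uni : ∀ x ∈ G, x * Star.star x = 1
  nrm : ∀ (c : A) (p u : k), NR c p u → Algebra.norm k c = (p ^ 2 + p * u + ν * u ^ 2) ^ r
  pen : ∀ y ∈ Wi I, ∀ g : Aˣ, (g : A) = 1 + y → ∀ X ∈ G, ∃ U V : k[X], U.natDegree ≤ m ∧
    V.natDegree ≤ m ∧
    (∀ μ : k, NR (cc I (X * gg ((g : A) * I * ((g⁻¹ : Aˣ) : A)) μ)) (U.eval μ) (V.eval μ)) ∧
    NR (cc I (X * ((g : A) * I * ((g⁻¹ : Aˣ) : A)))) (U.coeff m) (V.coeff m)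
  near : ∀ (v : Place k) (κ : ℝ), 0 < κ → ∃ η : ℝ, 0 < η ∧ ∀ (c0 c1 : A) (U V : k[X]),
    U.natDegree ≤ m → V.natDegree ≤ m → (∀ μ : k, NR (c0 + μ • c1) (U.eval μ) (V.eval μ)) →
    Sm B v η (c0 - 1) → Sm B v η (c1 - I) →
    (∀ l, v.abv (U.coeff l - (uv2 ν m).1.coeff l) < κ) ∧
      ∀ l, v.abv (V.coeff l - (uv2 ν m).2.coeff l) < κ

/-- The form has no zero. -/
theorem form_ne {k : Type} [Field k] {ν : k} (h2 : (2 : k) = 0) (hν : ∀ z : k, z * z + z ≠ ν)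
    {p u : k} (h : p ≠ 0 ∨ u ≠ 0) : p ^ 2 + p * u + ν * u ^ 2 ≠ 0 := by
  intro h0
  by_cases hu : u = 0
  · subst hu
    rcases h with h | h
    · apply h
      have h3 : p ^ 2 = 0 := by linear_combination h0
      exact pow_eq_zero_iff two_ne_zero |>.mp h3
    · exact h rfl
  · apply hν (p / u)
    have h3 : p / u * (p / u) + p / u + ν = 0 := by
      have e : p / u * (p / u) + p / u + ν = (p ^ 2 + p * u + ν * u ^ 2) / u ^ 2 := by
        field_simp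
      rw [e, h0, zero_div]
    linear_combination h3 - ν * h2

section lem

variable {N : ℕ} {B : Basis (Fin N) k A} {ν : k} {I : A} {m r : ℕ} {G : Set A}
    {NR : A → k → k → Prop}

theorem NRData.ne (hN : NRData B ν I m r G NR) (h2 : (2 : k) = 0)
    (hν : ∀ z : k, z * z + z ≠ ν) {c : A} {p u : k} (hpu : p ≠ 0 ∨ u ≠ 0) (hc : NR c p u) :
    c ≠ 0 := by
  rintro rfl
  have h1 := hN.nrm _ _ _ hc
  have hfin : Module.Finite k A := Module.Finite.of_basis B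
  have h3 : Algebra.norm k (0 : A) = 0 := Algebra.norm_zero
  rw [h3, eq_comm] at h1
  exact pow_ne_zero _ (form_ne h2 hν hpu) h1

/-- The pencil has no zero when its polynomials are coprime. -/
theorem NRData.pencil_ne (hN : NRData B ν I m r G NR) (h2 : (2 : k) = 0)
    (hν : ∀ z : k, z * z + z ≠ ν) {c : A} {U V : k[X]}
    (hUV : IsCoprime U V) {μ : k} (hc : NR c (U.eval μ) (V.eval μ)) : c ≠ 0 := by
  refine hN.ne h2 hν ?_ hc
  by_contra hcon
  rw [not_or, not_not, not_not] at hcon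
  obtain ⟨h3, h4⟩ := hcon
  obtain ⟨P, R, hPR⟩ := hUV
  have h5 := congrArg (eval μ) hPR
  rw [eval_add, eval_mul, eval_mul, h3, h4, mul_zero, mul_zero, add_zero, eval_one] at h5
  exact zero_ne_one h5

/-- **The point of the grid at a place of `U₀`.** -/
theorem theta_at2 (hN : NRData B ν I m r G NR) (hr : r ≠ 0) {v : Place k} (hG : Gd B v)
    (hν : v.abv ν ≤ 1) (hns : ¬ Sp ν v) (hIb : Bd B v 1 I) {j : A} (hj : Bd B v 1 j)
    (Θ : Finset k) (hi : ∀ x ∈ Θ, v.abv x ≤ 1)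
    (hd : ∀ x ∈ Θ, ∀ y ∈ Θ, x ≠ y → v.abv (x - y) = 1)
    (hcard : 2 * m < Θ.card) {X : A} (hX : Bd B v 1 X) {U V U' V' : k[X]}
    (hU : U.natDegree ≤ m) (hV : V.natDegree ≤ m) (hU' : U'.natDegree ≤ m)
    (hV' : V'.natDegree ≤ m)
    (n1 : ∀ μ : k, NR (cc I (1 * gg j μ)) (U.eval μ) (V.eval μ))
    (n2 : ∀ μ : k, NR (cc I (X * gg j μ)) (U'.eval μ) (V'.eval μ))
    (l1 : NR (cc I (1 * j)) (U.coeff m) (V.coeff m))
    (l2 : NR (cc I (X * j)) (U'.coeff m) (V'.coeff m))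
    (u1 : Un B v (cc I (1 * j))) (u2 : Un B v (cc I (X * j))) :
    ∃ θ ∈ Θ, ∀ μ : k, v.abv (μ - θ) < 1 → Un B v (cc I (1 * gg j μ)) ∧
      Un B v (cc I (X * gg j μ)) := by
  have hgb : ∀ μ : k, v.abv μ ≤ 1 → Bd B v 1 (gg j μ) := fun μ hμ =>
    hG.one.add (bd_smul1 hμ hj)
  have k1 := fun μ (hμ : v.abv μ ≤ 1) => un_of_norm_form hG hν hns
    (bd_cc hG hIb (bd_mul hG hG.one (hgb μ hμ))) hr (hN.nrm _ _ _ (n1 μ))
  have k2 := fun μ (hμ : v.abv μ ≤ 1) => un_of_norm_form hG hν hns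
    (bd_cc hG hIb (bd_mul hG hX (hgb μ hμ))) hr (hN.nrm _ _ _ (n2 μ))
  have m1 := un_of_norm_form hG hν hns (bd_cc hG hIb (bd_mul hG hG.one hj)) hr (hN.nrm _ _ _ l1)
  have m2 := un_of_norm_form hG hν hns (bd_cc hG hIb (bd_mul hG hX hj)) hr (hN.nrm _ _ _ l2)
  obtain ⟨θ, hθ, hθ'⟩ := exists_theta v hU hV hU' hV' Θ hi hd hcard
    (fun x hx => ⟨(k1 x (hi x hx)).1, (k1 x (hi x hx)).2.1⟩)
    (fun x hx => ⟨(k2 x (hi x hx)).1, (k2 x (hi x hx)).2.1⟩)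
    (m1.2.2.mp u1) (m2.2.2.mp u2)
  refine ⟨θ, hθ, fun μ hμ => ?_⟩
  have hμ1 : v.abv μ ≤ 1 := by
    have e : μ = (μ - θ) + θ := by ring
    rw [e]
    exact (v.nonarch _ _).trans (max_le hμ.le (hi θ hθ))
  exact ⟨(k1 μ hμ1).2.2.mpr (hθ' μ hμ).1, (k2 μ hμ1).2.2.mpr (hθ' μ hμ).2⟩

end lem

/-- **The middle element.** For `x` near one, there is a unit `g` such that the sums
`I + g I g⁻¹ + 1` and `g I g⁻¹ + x I x⁻¹ + 1` are units at the inert places outside `S`. -/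
theorem exists_mid2 (hst : ∀ (c : k) (x : A), star (c • x) = c • star x) (h2 : (2 : k) = 0)
    (hiso : ∀ x : A, star x * x = 0 → x = 0)
    {ν : k} (hν : ∀ z : k, z * z + z ≠ ν) {N : ℕ} (B : Basis (Fin N) k A) {I : A}
    (hI : I ∈ Xs A ν) (hC : ∀ z : A, z * I = I * z → z ≠ 0 → IsUnit z) {m r : ℕ} (hm : 0 < m)
    (hr : r ≠ 0) {G : Set A} {NR : A → k → k → Prop} (hN : NRData B ν I m r G NR)
    {S₁ : Set (Place k)} {J : Set A} (hS₁ : S₁.Finite) (hJ : J.Finite) (hJW : J ⊆ Wi I)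
    (hloc : ∀ v ∉ S₁, ∀ x : A, x * star x = 1 → Bd B v 1 x →
        ∃ y ∈ J, Un B v (1 + y) ∧ Un B v (I + (I + 1) * (y * y)) ∧
          Un B v (cc I x * (I + (I + 1) * (y * y)) + (x + cc I x) * y))
    (S' : Finset (Place k)) (v0 : Place k) :
    ∃ S : Finset (Place k), S' ⊆ S ∧ v0 ∈ S ∧ (∀ v ∉ S, v.abv ν ≤ 1 ∧ Gd B v) ∧
      ∀ κ : ℝ, 0 < κ → ∃ ε : ℝ, 0 < ε ∧ ∀ q ∉ S, Sp ν q → ∀ x ∈ G,
        (∀ v ∈ S, Sm B v ε (x - 1)) → (∀ v ∉ S, v ≠ q → Bd B v 1 x) →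
        ∃ g : Aˣ, (g : A) * I * ((g⁻¹ : Aˣ) : A) ∈ Xs A ν ∧
          (∀ v ∈ S, Sm B v κ ((g : A) * I * ((g⁻¹ : Aˣ) : A) - I) ∧
            Sm B v κ (x * I * star x - I)) ∧
          (∀ v ∉ S, ¬ Sp ν v → Un B v (I + (g : A) * I * ((g⁻¹ : Aˣ) : A) + 1)) ∧
          (∀ v ∉ S, ¬ Sp ν v →
            Un B v ((g : A) * I * ((g⁻¹ : Aˣ) : A) + x * I * star x + 1)) := by
  classical
  have hν0 : ν ≠ 0 := by
    rintro rfl
    exact hν 0 (by ring)
  have := NeFF.infinite_of_place v0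
  obtain ⟨Θ, hΘ⟩ := exists_grid v0 (2 * m + 1)
  have hF6 : (⋃ y ∈ J, {v : Place k | ¬ Bd B v 1 y}).Finite :=
    hJ.biUnion fun y _ => finite_not_bd B y
  have hfin : ((S' : Set (Place k)) ∪ {v0} ∪ S₁ ∪ {v : Place k | ¬ Gd B v} ∪
      {v : Place k | ¬ ((∀ x ∈ Θ, v.abv x ≤ 1) ∧
        ∀ x ∈ Θ, ∀ y ∈ Θ, x ≠ y → v.abv (x - y) = 1)} ∪
      {v : Place k | v.abv ν ≠ 1} ∪ {v : Place k | ¬ Bd B v 1 I} ∪
      (⋃ y ∈ J, {v : Place k | ¬ Bd B v 1 y})).Finite :=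
    (((((((S'.finite_toSet).union (Set.finite_singleton v0)).union hS₁).union
      (finite_bad B)).union (grid_good Θ)).union (place_finite hν0)).union
      (finite_not_bd B I)).union hF6
  refine ⟨hfin.toFinset, ?_, ?_, ?_, ?_⟩
  · intro v hv
    rw [Set.Finite.mem_toFinset]
    simp only [Set.mem_union]
    exact Or.inl (Or.inl (Or.inl (Or.inl (Or.inl (Or.inl (Or.inl hv))))))
  · rw [Set.Finite.mem_toFinset]
    simp only [Set.mem_union]
    exact Or.inl (Or.inl (Or.inl (Or.inl (Or.inl (Or.inl (Or.inr rfl))))))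
  · intro v hv
    rw [Set.Finite.mem_toFinset] at hv
    simp only [Set.mem_union, not_or, Set.mem_ofPred_eq, not_not] at hv
    exact ⟨hv.1.1.2.le, hv.1.1.1.1.2⟩
  intro κ hκ
  obtain ⟨S, hSdef⟩ : ∃ S, S = hfin.toFinset := ⟨_, rfl⟩
  rw [← hSdef]
  have hout : ∀ v ∉ S, v ≠ v0 ∧ v ∉ S₁ ∧ Gd B v ∧ ((∀ x ∈ Θ, v.abv x ≤ 1) ∧
        ∀ x ∈ Θ, ∀ y ∈ Θ, x ≠ y → v.abv (x - y) = 1) ∧ v.abv ν ≤ 1 ∧ Bd B v 1 I ∧
        ∀ y ∈ J, Bd B v 1 y := by
    intro v hv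
    rw [hSdef, Set.Finite.mem_toFinset] at hv
    simp only [Set.mem_union, not_or, Set.mem_ofPred_eq, not_not, Set.mem_iUnion, not_exists]
      at hv
    exact ⟨hv.1.1.1.1.1.1.2, hv.1.1.1.1.1.2, hv.1.1.1.1.2, hv.1.1.1.2, hv.1.1.2.le,
      hv.1.2, fun y hy => hv.2 y hy⟩
  have hv0S : v0 ∈ S := by
    by_contra hcon
    exact (hout v0 hcon).1 rfl
  clear hSdef hfin hF6
  -- the constants
  obtain ⟨κc, hκc, hcop⟩ := cop_near_uv2 v0.abv h2 hν0 hm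
  obtain ⟨ηc, hηc, hpoly⟩ := hN.near v0 κc hκc
  choose η1 hη1 hc1 using fun v : Place k => conj_near (B := B) (v := v) hst I hκ
  obtain ⟨ηd, hηd, hηd'⟩ : ∃ ηd : ℝ, 0 < ηd ∧ ¬ Sm B v0 ηd (1 : A) := by
    have h3 : B.repr (1 : A) ≠ 0 := by
      rw [Ne, LinearEquiv.map_eq_zero_iff]
      exact one_ne_zero
    obtain ⟨i, hi⟩ : ∃ i, B.repr (1 : A) i ≠ 0 := by
      by_contra hcon
      push Not at hcon
      exact h3 (Finsupp.ext hcon)
    exact ⟨v0.abv (B.repr (1 : A) i), v0.abv.pos hi, fun h4 => lt_irrefl _ (h4 i)⟩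
  obtain ⟨η2, hη2, hc2⟩ := lin_near (B := B) (v := v0) (ccL (k := k) I) (lt_min hηc hηd)
  have hsub : ∀ z z' : A, ccL (k := k) I (z - z') = cc I z - cc I z' := fun z z' => by
    rw [map_sub]
    rfl
  obtain ⟨η3, hη3, hc3⟩ := mul_near (B := B) (v := v0) hst I hη2
  obtain ⟨η4, hη4, hc4⟩ := conj_near (B := B) (v := v0) hst I (lt_min hη3 hη2)
  obtain ⟨η5, hη5, hη5'⟩ := Vale.Agent.P011.H167.Cn.exists_min_pos S.finite_toSet η1 hη1
  refine ⟨min η5 η4, lt_min hη5 hη4, fun q hq hqs x hx hxS hxi => ?_⟩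
  have hx1 : x * star x = 1 := hN.uni x hx
  have hsx : star x * x = 1 := by
    have := hN.uni _ (hN.star x hx)
    rwa [star_star] at this
  have hsG : star x ∈ G := hN.star x hx
  have hqv0 : v0 ≠ q := fun h0 => hq (h0 ▸ hv0S)
  have hxI : ∀ v ∈ S, Sm B v κ (x * I * star x - I) := fun v hv =>
    (hc1 v x (star x) hx1 ((hxS v hv).mono ((min_le_left _ _).trans (hη5' v hv)))).1
  have hxv0 : Sm B v0 (min η3 η2) (star x - 1) :=
    (hc4 x (star x) hx1 ((hxS v0 hv0S).mono (min_le_right _ _))).2.1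
  have hccX : cc I (star x) ≠ 0 := by
    intro h0
    have h3 := hc2 _ (hxv0.mono (min_le_right _ _))
    rw [hsub, h0, cc_one h2, zero_sub] at h3
    have h4 := h3.neg
    rw [neg_neg] at h4
    exact hηd' (h4.mono (min_le_right _ _))
  obtain ⟨wX, hwX⟩ := hC _ (cc_comm h2 hI (star x)) hccX
  -- the places where `cc I (star x)` is not a unit
  obtain ⟨U₀, hU₀d⟩ : ∃ U₀ : Set (Place k), U₀ = {v | v ∉ S ∧ ¬ Sp ν v ∧
    ¬ Un B v (cc I (star x))} := ⟨_, rfl⟩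
  have hU₀ : U₀.Finite := (finite_not_un B (x := cc I (star x)) (y := ((wX⁻¹ : Aˣ) : A))
      (by rw [← hwX, Units.mul_inv]) (by rw [← hwX, Units.inv_mul])).subset fun v hv => by
    rw [hU₀d] at hv
    exact hv.2.2
  have hU₀' : ∀ v ∈ U₀, v ∉ S ∧ ¬ Sp ν v := fun v hv => by
    rw [hU₀d] at hv
    exact ⟨hv.1, hv.2.1⟩
  have hU₀q : ∀ v, ¬ Sp ν v → v ≠ q := fun v hv h0 => hv (h0 ▸ hqs)
  have hsxi : ∀ v ∉ S, v ≠ q → Bd B v 1 (star x) := fun v hv hvq =>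
    (hout v hv).2.2.1.star' hst zero_le_one (hxi v hv hvq)
  have hyex : ∀ v ∈ U₀, ∃ y ∈ J, Un B v (1 + y) ∧ Un B v (I + (I + 1) * (y * y)) ∧
      Un B v (cc I (star x) * (I + (I + 1) * (y * y)) + (star x + cc I (star x)) * y) :=
    fun v hv => hloc v (hout v (hU₀' v hv).1).2.1 (star x) (hN.uni _ hsG)
      (hsxi v (hU₀' v hv).1 (hU₀q v (hU₀' v hv).2))
  choose! yv hyv hyv1 hyv2 hyv3 using hyex
  obtain ⟨W₀, hW₀⟩ : ∃ W₀ : Submodule k A, (W₀ : Set A) = Wi I :=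
    ⟨{ carrier := Wi I
       zero_mem' := wi_zero I
       add_mem' := fun h h' => wi_add h h'
       smul_mem' := fun c x hx => wi_smul hst c hx }, rfl⟩
  obtain ⟨y, hyW', hyU, hyv0⟩ := exists_pick B hJ W₀ (by rw [hW₀]; exact hJW) v0 q hqv0
    hU₀ (fun h0 => (hU₀' v0 h0).1 hv0S) (fun h0 => hU₀q q (hU₀' q h0).2 rfl)
    (fun v hv y hy => (hout v (hU₀' v hv).1).2.2.2.2.2.2 y hy) yv hyv (ε := η4) hη4
  have hyW : y ∈ Wi I := by
    rw [← hW₀]
    exact hyW'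
  obtain ⟨gy, hgy⟩ := isUnit_one_add h2 hiso hC hyW
  -- the element `j`
  obtain ⟨j, hjd⟩ : ∃ j, j = (gy : A) * I * ((gy⁻¹ : Aˣ) : A) := ⟨_, rfl⟩
  have hj : j ∈ Xs A ν := by
    rw [hjd]
    exact jj_mem h2 hI hyW hgy
  have hjU : ∀ v ∈ U₀, Bd B v 1 j ∧ Un B v (cc I (1 * j)) ∧ Un B v (cc I (star x * j)) := by
    intro v hv
    obtain ⟨hvS, hvn⟩ := hU₀' v hv
    obtain ⟨-, -, hG, -, hδv, hIb, hJb⟩ := hout v hvS
    rw [hjd]
    exact un_at2 h2 hG hI hIb hyW hgy (hJb _ (hyv v hv)) (hyU v hv) (hyv1 v hv)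
      (hyv2 v hv) (hsxi v hvS (hU₀q v hvn)) (hyv3 v hv)
  -- nearness at `v0`
  have hjv0 : Sm B v0 (min η3 η2) (j - I) := by
    rw [hjd]
    refine (hc4 (gy : A) ((gy⁻¹ : Aˣ) : A) (Units.mul_inv gy) ?_).1
    rw [hgy, add_sub_cancel_left]
    exact hyv0
  -- the pencils
  obtain ⟨U, V, hU, hV, n1, l1⟩ := hN.pen y hyW gy hgy 1 hN.one
  obtain ⟨U', V', hU', hV', n1', l1'⟩ := hN.pen y hyW gy hgy (star x) hsG
  rw [← hjd] at l1 l1'
  simp only [← hjd] at n1 n1'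
  have hXne : ∀ X : A, Sm B v0 (min η3 η2) (X - 1) →
      Sm B v0 ηc (cc I X - 1) ∧ Sm B v0 ηc (cc I (X * j) - I) := by
    intro X hX
    constructor
    · have h3 := hc2 _ (hX.mono (min_le_right _ _))
      rw [hsub, cc_one h2] at h3
      exact h3.mono (min_le_left _ _)
    · have h3 := hc2 _ (hc3 X j (hX.mono (min_le_left _ _)) (hjv0.mono (min_le_left _ _)))
      rw [hsub, cc_self h2] at h3
      exact h3.mono (min_le_left _ _)
  have hn1 : Sm B v0 (min η3 η2) ((1 : A) - 1) := by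
    rw [sub_self]
    exact sm_zero (lt_min hη3 hη2)
  obtain ⟨p1, p2⟩ := hpoly (cc I 1) (cc I (1 * j)) U V hU hV
    (fun μ => by rw [← cc_gg]; exact n1 μ) (hXne 1 hn1).1 (hXne 1 hn1).2
  obtain ⟨p1', p2'⟩ := hpoly (cc I (star x)) (cc I (star x * j)) U' V' hU' hV'
    (fun μ => by rw [← cc_gg]; exact n1' μ) (hXne _ hxv0).1 (hXne _ hxv0).2
  obtain ⟨hUV, hUm⟩ := hcop U V hU hV (fun l => p1 l) (fun l => p2 l)
  obtain ⟨hUV', hUm'⟩ := hcop U' V' hU' hV' (fun l => p1' l) (fun l => p2' l)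
  -- the points of the grid
  have hθex : ∀ v ∈ U₀, ∃ θ ∈ Θ, ∀ μ : k, v.abv (μ - θ) < 1 → Un B v (cc I (1 * gg j μ)) ∧
      Un B v (cc I (star x * gg j μ)) := by
    intro v hv
    obtain ⟨hvS, hvn⟩ := hU₀' v hv
    obtain ⟨-, -, hG, ⟨hΘ1, hΘ2⟩, hδv, hIb, hJb⟩ := hout v hvS
    obtain ⟨hjb, u1, u2⟩ := hjU v hv
    exact theta_at2 hN hr hG hδv hvn hIb hjb Θ hΘ1 hΘ2 (by omega)
      (hsxi v hvS (hU₀q v hvn)) hU hV hU' hV' n1 n1' l1 l1' u1 u2
  choose! θv hθv hθv' using hθex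
  -- the exceptional places
  obtain ⟨W, hWd⟩ : ∃ W : Set (Place k), W = {v : Place k | ¬ ((∀ l, v.abv (U.coeff l) ≤ 1) ∧
      (∀ l, v.abv (V.coeff l) ≤ 1) ∧ ∀ x : k, v.abv x ≤ 1 →
        v.abv (U.eval x) = 1 ∨ v.abv (V.eval x) = 1)} ∪
      {v : Place k | ¬ ((∀ l, v.abv (U'.coeff l) ≤ 1) ∧
      (∀ l, v.abv (V'.coeff l) ≤ 1) ∧ ∀ x : k, v.abv x ≤ 1 →
        v.abv (U'.eval x) = 1 ∨ v.abv (V'.eval x) = 1)} ∪ {v : Place k | ¬ Bd B v 1 j} :=
    ⟨_, rfl⟩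
  have hW : W.Finite := by
    rw [hWd]
    exact ((cop_good hUV).union (cop_good hUV')).union (finite_not_bd B j)
  have hWout : ∀ v ∉ W, (∀ x : k, v.abv x ≤ 1 → v.abv (U.eval x) = 1 ∨ v.abv (V.eval x) = 1) ∧
      (∀ x : k, v.abv x ≤ 1 → v.abv (U'.eval x) = 1 ∨ v.abv (V'.eval x) = 1) ∧ Bd B v 1 j := by
    intro v hv
    rw [hWd] at hv
    simp only [Set.mem_union, not_or, Set.mem_ofPred_eq, not_not] at hv
    exact ⟨hv.1.1.2.2, hv.1.2.2.2, hv.2⟩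
  -- the sizes at the places of `S` and at the exceptional places
  have hsmall : ∀ (v : Place k) (η : ℝ), 0 < η → ∃ η' : ℝ, 0 < η' ∧ ∀ μ : k, v.abv μ < η' →
      Sm B v η (gg j μ - 1) ∧ Sm B v η (star x * gg j μ - star x) := by
    intro v η hη
    obtain ⟨ηa, ha1, ha2⟩ := smul_near (B := B) (v := v) j hη
    obtain ⟨ηb, hb1, hb2⟩ := smul_near (B := B) (v := v) (star x * j) hη
    refine ⟨min ηa ηb, lt_min ha1 hb1, fun μ hμ => ?_⟩
    constructor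
    · have e : gg j μ - 1 = μ • j := by
        unfold gg
        abel
      rw [e]
      exact ha2 μ (hμ.trans_le (min_le_left _ _))
    · have e : star x * gg j μ - star x = μ • (star x * j) := by
        unfold gg
        rw [mul_add, mul_one, mul_smul_comm]
        abel
      rw [e]
      exact hb2 μ (hμ.trans_le (min_le_right _ _))
  have hsizeS : ∀ v : Place k, ∃ η' : ℝ, 0 < η' ∧ ∀ μ : k, v.abv μ < η' →
      ∀ g', gg j μ * g' = 1 → Sm B v κ (gg j μ * I * g' - I) := by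
    intro v
    obtain ⟨η', h1, h3⟩ := hsmall v (η1 v) (hη1 v)
    exact ⟨η', h1, fun μ hμ g' hg' => (hc1 v (gg j μ) g' hg' (h3 μ hμ).1).1⟩
  have hsizeW : ∀ v : Place k, ∃ η' : ℝ, 0 < η' ∧ ∀ μ : k, v.abv μ < η' →
      Sm B v 1 (gg j μ - 1) ∧ Sm B v 1 (cc I (1 * gg j μ) - cc I 1) ∧
        Sm B v 1 (cc I (star x * gg j μ) - cc I (star x)) := by
    intro v
    obtain ⟨ηa, ha1, ha2⟩ := lin_near (B := B) (v := v) (ccL (k := k) I) one_pos
    obtain ⟨η', h1, h3⟩ := hsmall v (min ηa 1) (lt_min ha1 one_pos)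
    refine ⟨η', h1, fun μ hμ => ⟨(h3 μ hμ).1.mono (min_le_right _ _), ?_, ?_⟩⟩
    · rw [← hsub]
      refine ha2 _ ?_
      rw [one_mul]
      exact (h3 μ hμ).1.mono (min_le_left _ _)
    · rw [← hsub]
      exact ha2 _ ((h3 μ hμ).2.mono (min_le_left _ _))
  choose ηS hηS hηS' using hsizeS
  choose ηW hηW hηW' using hsizeW
  obtain ⟨μ, hμ1, hμ2⟩ := near_int_fam (S := ((S : Set (Place k)) ∪ U₀ ∪ W) \ {q})
    (((S.finite_toSet.union hU₀).union hW).subset Set.sdiff_subset) q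
    (fun h0 => h0.2 rfl) (fun v => if v ∈ U₀ then θv v else 0)
    (fun v => if v ∈ U₀ then 1 else min (ηS v) (ηW v)) (fun v _ => by
      split_ifs
      · exact one_pos
      · exact lt_min (hηS v) (hηW v))
  have hSq : ∀ v ∈ S, v ≠ q := fun v hv h0 => hq (h0 ▸ hv)
  have hμS : ∀ v ∈ S, v.abv μ < ηS v := by
    intro v hv
    have h1 := hμ1 v ⟨Or.inl (Or.inl hv), hSq v hv⟩
    have h3 : v ∉ U₀ := fun h0 => (hU₀' v h0).1 hv
    simp only [if_neg h3, sub_zero] at h1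
    exact h1.trans_le (min_le_left _ _)
  have hρ0 := rho_ne h2 hν μ
  obtain ⟨g, hgd⟩ : ∃ g : Aˣ, g = ggU h2 hst hj hρ0 := ⟨_, rfl⟩
  have hgv : (g : A) = gg j μ := by
    rw [hgd]
    rfl
  have hgs : star (g : A) * g = algebraMap k A (1 + μ + μ ^ 2 * ν) := by
    rw [hgv]
    exact star_mul_gg h2 hst hj μ
  -- the units
  have key : ∀ v ∉ S, ¬ Sp ν v → Un B v (g : A) ∧ Un B v (cc I (1 * (g : A))) ∧
      Un B v (cc I (star x * (g : A))) := by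
    intro v hvS hvn
    rw [hgv]
    have hvq := hU₀q v hvn
    obtain ⟨-, -, hG, -, hδv, hIb, -⟩ := hout v hvS
    by_cases hvU : v ∈ U₀
    · have h1 := hμ1 v ⟨Or.inl (Or.inr hvU), hvq⟩
      simp only [if_pos hvU] at h1
      have hμv : v.abv μ ≤ 1 := by
        have e : μ = (μ - θv v) + θv v := by ring
        rw [e]
        exact (v.nonarch _ _).trans (max_le h1.le ((hout v hvS).2.2.2.1.1 _ (hθv v hvU)))
      exact ⟨un_gg h2 hst hG hj (hjU v hvU).1 hμv (abv_rho hδv hvn hμv), hθv' v hvU μ h1⟩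
    by_cases hvW : v ∈ W
    · have h1 := hμ1 v ⟨Or.inr hvW, hvq⟩
      simp only [if_neg hvU, sub_zero] at h1
      obtain ⟨a1, a2, a3⟩ := hηW' v μ (h1.trans_le (min_le_right _ _))
      have b1 : Un B v (cc I 1) := by
        rw [cc_one h2]
        exact un_one hG
      have b2 : Un B v (cc I (star x)) := by
        by_contra hcon
        apply hvU
        rw [hU₀d]
        exact ⟨hvS, hvn, hcon⟩
      exact ⟨un_of_near hG (un_one hG) a1, un_of_near hG b1 a2, un_of_near hG b2 a3⟩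
    · obtain ⟨w1, w2, w3⟩ := hWout v hvW
      have hμv : v.abv μ ≤ 1 := hμ2 v (fun h0 => by
        rcases h0.1 with (h1 | h1) | h1
        · exact hvS h1
        · exact hvU h1
        · exact hvW h1) hvq
      have hgb : Bd B v 1 (gg j μ) := hG.one.add (bd_smul1 hμv w3)
      refine ⟨un_gg h2 hst hG hj w3 hμv (abv_rho hδv hvn hμv), ?_, ?_⟩
      · exact (un_of_norm_form hG hδv hvn (bd_cc hG hIb (bd_mul hG hG.one hgb)) hr
          (hN.nrm _ _ _ (n1 μ))).2.2.mpr (w1 μ hμv)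
      · exact (un_of_norm_form hG hδv hvn (bd_cc hG hIb (bd_mul hG (hsxi v hvS hvq) hgb)) hr
          (hN.nrm _ _ _ (n1' μ))).2.2.mpr (w2 μ hμv)
  refine ⟨g, conj_mem hgs hρ0 hI, fun v hv => ⟨?_, hxI v hv⟩, fun v hvS hvn => ?_,
    fun v hvS hvn => ?_⟩
  · have h1 := hηS' v μ (hμS v hv) ((g⁻¹ : Aˣ) : A) (by rw [← hgv, Units.mul_inv])
    rwa [← hgv] at h1
  · obtain ⟨u1, u2, -⟩ := key v hvS hvn
    have e : I + (g : A) * I * ((g⁻¹ : Aˣ) : A) + 1 = cc I (1 * (g : A)) * ((g⁻¹ : Aˣ) : A) := by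
      rw [one_mul, ← pair_one g, Units.mul_inv_cancel_right]
    rw [e]
    exact un_mul (hout v hvS).2.2.1 u2 u1.units_inv
  · obtain ⟨u1, -, u3⟩ := key v hvS hvn
    have hvq := hU₀q v hvn
    have e : (g : A) * I * ((g⁻¹ : Aˣ) : A) + x * I * star x + 1 =
        x * cc I (star x * (g : A)) * ((g⁻¹ : Aˣ) : A) := by
      rw [← pair_two g hx1, Units.mul_inv_cancel_right]
    rw [e]
    have hxu : Un B v x := ⟨hxi v hvS hvq, star x, hx1, hsx, hsxi v hvS hvq⟩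
    exact un_mul (hout v hvS).2.2.1 (un_mul (hout v hvS).2.2.1 hxu u3) u1.units_inv

end main

end Vale.Agent.P011.H732R
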